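import Vale.Agent.P177.TH.Van
import Vale.Agent.P177.Ap.Approx

/-!
P177, block TH: the truncated Euler characteristic `θ`, as a function satisfying `IsTheta`.
-/

namespace Vale.Agent.P177.TH

open Vale.Agent.P202.Mix TensorProduct Function
open scoped ENNReal

universe u

variable {D : Type u} [CommRing D] (B : Type u) [CommRing B] [Algebra D B] (α : D) (L : AddLen D)
  (η : D)

/-- the truncated Euler characteristic. -/
noncomputable def theta (n : ℕ) (A : Type u) [AddCommGroup A] [Module B A]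
    (X : Type u) [AddCommGroup X] [Module D X] : ℝ :=
  chi (resLen L B) n (B ⊗[D] X) A

/-- admissible modules. -/
def Adm (m : ℕ) (A : Type u) [AddCommGroup A] [Module B A]
    (X : Type u) [AddCommGroup X] [Module D X] : Prop :=
  (∃ k : ℕ, ∀ x : X, α • x = 0 → ∃ y : X, η ^ k • x = α ^ m • y) ∧
    ∀ i, (resLen L B).len (TorM B i (B ⊗[D] X) A) < ⊤

/-- modules killed by powers of `η` are null. -/
def EtaNull : Prop := ∀ (M : Type u) [AddCommGroup M] [Module D M] (k : ℕ),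
  (∀ x : M, η ^ k • x = 0) → Null L M

variable {B α L η}

theorem aflat_of (hη : EtaNull L η) {m : ℕ} (hm : 1 ≤ m) {X : Type u} [AddCommGroup X]
    [Module D X] (h : ∃ k : ℕ, ∀ x : X, α • x = 0 → ∃ y : X, η ^ k • x = α ^ m • y) :
    AFlat L α 1 X := by
  obtain ⟨k, hk⟩ := h
  refine hη _ k ?_
  intro x
  obtain ⟨⟨x, hx⟩, rfl⟩ := Submodule.mkQ_surjective _ x
  rw [← map_smul, Submodule.mkQ_apply, Submodule.Quotient.mk_eq_zero]
  obtain ⟨y, hy⟩ := hk x hx
  obtain ⟨m, rfl⟩ : ∃ i, m = i + 1 := ⟨m - 1, by omega⟩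
  refine ⟨α ^ m • y, ?_⟩
  change α ^ 1 • α ^ m • y = η ^ k • x
  rw [hy, smul_smul, pow_one, ← pow_succ']

/-- `B ⊗ X → B ⊗ Y` is a null isomorphism. -/
theorem niso_baseChange (H : IsHypersurface D B α) (hη : EtaNull L η)
    {X Y : Type u} [AddCommGroup X] [Module D X] [AddCommGroup Y] [Module D Y] (f : X →ₗ[D] Y)
    (k : ℕ) (h1 : ∀ x, f x = 0 → η ^ k • x = 0) (h2 : ∀ y, ∃ x, f x = η ^ k • y) :
    NIso (resLen L B) (f.baseChange B) := by
  have hη' : ∀ (M : Type u) [AddCommGroup M] [Module D M] [Module B M] [IsScalarTower D B M]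
      (k : ℕ), (∀ x : M, η ^ k • x = 0) → Null (resLen L B) M := by
    intro M _ _ _ _ k hk
    unfold Null
    rw [resLen_len]
    exact hη M k hk
  refine ⟨hη' _ (k + k) ?_, hη' _ k ?_⟩
  · rintro ⟨z, hz⟩
    apply Subtype.ext
    change η ^ (k + k) • z = 0
    obtain ⟨x, rfl⟩ := H.one_tmul_surj z
    have hz' : (1 : B) ⊗ₜ[D] f x = 0 := hz
    obtain ⟨y, hy⟩ := H.one_tmul_eq_zero _ hz'
    obtain ⟨x', hx'⟩ := h2 y
    have h3 : f (η ^ k • x - α • x') = 0 := by
      rw [map_sub, map_smul, map_smul, hy, hx', smul_comm, sub_self]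
    have h4 := h1 _ h3
    rw [smul_sub, smul_smul, ← pow_add, sub_eq_zero] at h4
    rw [← TensorProduct.tmul_smul, h4, smul_comm]
    exact H.smul_tmul_one _
  · intro z
    obtain ⟨z, rfl⟩ := Submodule.mkQ_surjective _ z
    obtain ⟨y, rfl⟩ := H.one_tmul_surj z
    obtain ⟨x, hx⟩ := h2 y
    have h5 : (LinearMap.range (f.baseChange B)).mkQ (η ^ k • (1 : B) ⊗ₜ[D] y) = 0 := by
      rw [Submodule.mkQ_apply, Submodule.Quotient.mk_eq_zero]
      refine ⟨(1 : B) ⊗ₜ[D] x, ?_⟩
      rw [LinearMap.baseChange_tmul, hx, TensorProduct.tmul_smul]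
    exact h5

/-- right exactness and null kernel for the base change of a short exact sequence. -/
theorem ses_baseChange (H : IsHypersurface D B α) (hη : EtaNull L η) {m : ℕ}
    {X' X X'' : Type u} [AddCommGroup X'] [Module D X'] [AddCommGroup X] [Module D X]
    [AddCommGroup X''] [Module D X''] (f : X' →ₗ[D] X) (g : X →ₗ[D] X'') (hf : Injective f)
    (hg : Surjective g) (h : Exact f g) (hq : ∀ x : X, α ^ (m + 1) • x = 0)
    (h'' : ∃ k : ℕ, ∀ x : X'', α • x = 0 → ∃ y : X'', η ^ k • x = α ^ m • y) :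
    Null (resLen L B) (LinearMap.ker (f.baseChange B)) ∧ Surjective (g.baseChange B) ∧
      Exact (f.baseChange B) (g.baseChange B) := by
  refine ⟨?_, LinearMap.lTensor_surjective B hg, lTensor_exact B h hg⟩
  obtain ⟨k, hk⟩ := h''
  unfold Null
  rw [resLen_len]
  refine hη _ k ?_
  rintro ⟨z, hz⟩
  apply Subtype.ext
  change η ^ k • z = 0
  obtain ⟨x', rfl⟩ := H.one_tmul_surj z
  have hz' : (1 : B) ⊗ₜ[D] f x' = 0 := hz
  obtain ⟨x, hx⟩ := H.one_tmul_eq_zero _ hz'
  have h1 : α • g x = 0 := by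
    rw [← map_smul, ← hx]
    exact (h _).2 ⟨x', rfl⟩
  obtain ⟨y'', hy''⟩ := hk _ h1
  obtain ⟨y, rfl⟩ := hg y''
  have h2 : g (η ^ k • x - α ^ m • y) = 0 := by
    rw [map_sub, map_smul, map_smul, hy'', sub_self]
  obtain ⟨w, hw⟩ := (h _).1 h2
  have h3 : η ^ k • x' = α • w := by
    apply hf
    rw [map_smul, map_smul, hw, smul_sub, smul_smul α (α ^ m), ← pow_succ', hq, sub_zero, hx,
      smul_comm]
  rw [← TensorProduct.tmul_smul, h3]
  exact H.smul_tmul_one _

variable (B α L η)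

/-- **The truncated Euler characteristic.** -/
theorem isTheta (H : IsHypersurface D B α) (hη : EtaNull L η) {m : ℕ} (hm : 1 ≤ m)
    (A : Type u) [AddCommGroup A] [Module D A] [Module B A] [IsScalarTower D B A]
    (hA : ∀ i, FPn B i A) (n : ℕ) (s : ℕ) (hs : s + 1 ≤ n) (hV : Vn D B s A) :
    Ap.IsTheta η (α ^ (m + 1)) (fun X _ _ => theta B L n A X)
      (fun X _ _ => Adm B α L η m A X) where
  zero X _ _ hX := by
    have hs : Subsingleton X := ⟨fun a b => by rw [hX a, hX b]⟩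
    have hs' : Subsingleton (B ⊗[D] X) := by
      refine ⟨fun a b => ?_⟩
      obtain ⟨x, rfl⟩ := H.one_tmul_surj a
      obtain ⟨y, rfl⟩ := H.one_tmul_surj b
      rw [Subsingleton.elim x y]
    have hn : Null (resLen L B) (B ⊗[D] X) := null_of_subsingleton
    refine ⟨⟨⟨0, fun x _ => ⟨0, by rw [hX x, smul_zero, smul_zero]⟩⟩, fun i => ?_⟩, ?_⟩
    · have h : (resLen L B).len (TorM B i (B ⊗[D] X) A) = 0 := null_tor' i (hA i) hn
      rw [h]
      exact ENNReal.zero_lt_top
    · exact chi_of_null hA hn n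
  iso {X Y} _ _ _ _ f k hqX hqY h1 h2 := by
    have hN := niso_baseChange H hη f k h1 h2
    refine ⟨?_, chi_of_niso hA _ hN n⟩
    unfold Adm
    have e1 : (∀ i, (resLen L B).len (TorM B i (B ⊗[D] X) A) < ⊤) ↔
        (∀ i, (resLen L B).len (TorM B i (B ⊗[D] Y) A) < ⊤) := by
      refine forall_congr' fun i => ?_
      rw [tor_len_of_niso hA _ hN i]
    rw [e1]
    refine and_congr_left fun _ => ?_
    constructor
    · rintro ⟨k', hk'⟩
      refine ⟨k' + k + k, fun y hy => ?_⟩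
      obtain ⟨x, hx⟩ := h2 y
      have h3 : f (α • x) = 0 := by rw [map_smul, hx, smul_comm, hy, smul_zero]
      have h4 := h1 _ h3
      rw [smul_comm] at h4
      obtain ⟨z, hz⟩ := hk' _ h4
      refine ⟨f z, ?_⟩
      rw [pow_add, mul_smul, ← hx, ← map_smul, pow_add, mul_smul, hz, map_smul]
    · rintro ⟨k', hk'⟩
      refine ⟨k + (k + k'), fun x hx => ?_⟩
      have h3 : α • f x = 0 := by rw [← map_smul, hx, map_zero]
      obtain ⟨y, hy⟩ := hk' _ h3
      obtain ⟨x', hx'⟩ := h2 y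
      have h4 : f (η ^ (k + k') • x - α ^ m • x') = 0 := by
        rw [map_sub, map_smul, map_smul, pow_add, mul_smul, hy, hx', smul_comm, sub_self]
      have h5 := h1 _ h4
      rw [smul_sub, sub_eq_zero, smul_smul, ← pow_add] at h5
      exact ⟨η ^ k • x', by rw [h5, smul_comm]⟩
  ext {X' X X''} _ _ _ _ _ _ f g hf hg h hq hX' hX'' := by
    obtain ⟨hn, hgs, hex⟩ := ses_baseChange (L := L) H hη f g hf hg h hq hX''.1
    have hvan : Null (resLen L B) (TorM B n (B ⊗[D] X'') A) := by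
      have h1 : Null (resLen L B) (TorM B n A (B ⊗[D] X'')) :=
        vn_null H (TensorProduct.isBaseChange D X'' B) (aflat_of hη hm hX''.1) s hV n hs
      obtain ⟨e⟩ := tor_symm (R := B) n A (B ⊗[D] X'')
      exact h1.congr e
    have key := chi_add_null (L := resLen L B) hA n (f.baseChange B) (g.baseChange B) hn hgs hex
      hX'.2 hX''.2 hvan
    refine ⟨⟨?_, key.1⟩, key.2⟩
    obtain ⟨k', hk'⟩ := hX'.1
    obtain ⟨k, hk⟩ := hX''.1
    refine ⟨k' + k, fun x hx => ?_⟩
    have h1 : α • g x = 0 := by rw [← map_smul, hx, map_zero]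
    obtain ⟨y'', hy''⟩ := hk _ h1
    obtain ⟨y, rfl⟩ := hg y''
    have h2 : g (η ^ k • x - α ^ m • y) = 0 := by
      rw [map_sub, map_smul, map_smul, hy'', sub_self]
    obtain ⟨w, hw⟩ := (h _).1 h2
    have h3 : α • w = 0 := by
      apply hf
      rw [map_smul, hw, map_zero, smul_sub, smul_smul α (α ^ m), ← pow_succ', hq, sub_zero,
        smul_comm, hx, smul_zero]
    obtain ⟨z, hz⟩ := hk' _ h3
    refine ⟨η ^ k' • y + f z, ?_⟩
    rw [smul_add, ← map_smul f, ← hz, map_smul, hw, smul_sub, smul_smul (η ^ k') (η ^ k), ← pow_add,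
      smul_comm (α ^ m) (η ^ k')]
    abel

/-- the truncation of an honest module. -/
theorem theta_trunc (H : IsHypersurface D B α) (hη : EtaNull L η) {m : ℕ}
    (A : Type u) [AddCommGroup A] [Module D A] [Module B A] [IsScalarTower D B A]
    (hA : ∀ i, FPn B i A) (n : ℕ) {V X : Type u} [AddCommGroup V] [Module D V]
    [AddCommGroup X] [Module D X] (hV : ∃ k : ℕ, ∀ v : V, α • v = 0 → η ^ k • v = 0)
    (hfin : ∀ i, L.len (TorM D i V A) < ⊤) (f : V →ₗ[D] X) (hf : Surjective f)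
    (hker : ∀ v, f v = 0 ↔ ∃ w, v = α ^ (m + 1) • w) :
    Adm B α L η m A X ∧ theta B L n A X = chi L n V A := by
  obtain ⟨k, hk⟩ := hV
  -- `B ⊗ V = B ⊗ X`
  have hbij : Bijective (f.baseChange B) := by
    refine ⟨?_, LinearMap.lTensor_surjective B hf⟩
    rw [injective_iff_map_eq_zero]
    intro z hz
    obtain ⟨v, rfl⟩ := H.one_tmul_surj z
    have hz' : (1 : B) ⊗ₜ[D] f v = 0 := hz
    obtain ⟨x, hx⟩ := H.one_tmul_eq_zero _ hz'
    obtain ⟨v', rfl⟩ := hf x
    have h1 : f (v - α • v') = 0 := by rw [map_sub, map_smul, hx, sub_self]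
    obtain ⟨w, hw⟩ := (hker _).1 h1
    have h2 : v = α • (v' + α ^ m • w) := by
      rw [smul_add, smul_smul, ← pow_succ', ← hw]
      abel
    rw [h2]
    exact H.smul_tmul_one _
  let e : (B ⊗[D] V) ≃ₗ[B] (B ⊗[D] X) := LinearEquiv.ofBijective (f.baseChange B) hbij
  have hlen : ∀ i, (resLen L B).len (TorM B i (B ⊗[D] X) A) = L.len (TorM D i V A) := by
    intro i
    rw [len_tor_baseChange_null H i (TensorProduct.isBaseChange D V B) (hη _ k ?_) A hA,
      len_congr _ (torCongrLeft i e A)]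
    rintro ⟨v, hv⟩
    exact Subtype.ext (hk v hv)
  refine ⟨⟨⟨k, fun x hx => ?_⟩, fun i => by rw [hlen]; exact hfin i⟩, ?_⟩
  · obtain ⟨v, rfl⟩ := hf x
    rw [← map_smul] at hx
    obtain ⟨w, hw⟩ := (hker _).1 hx
    have h1 : α • (v - α ^ m • w) = 0 := by
      rw [smul_sub, hw, smul_smul, ← pow_succ', sub_self]
    have h2 := hk _ h1
    rw [smul_sub, sub_eq_zero] at h2
    refine ⟨f (η ^ k • w), ?_⟩
    rw [← map_smul, ← map_smul, h2, smul_comm]
  · unfold theta chi
    exact Finset.sum_congr rfl fun i _ => by rw [hlen]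

end Vale.Agent.P177.TH
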