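import Vale.Agent.P177.TH.Van
import Vale.Agent.P177.RegularTor
import Vale.Agent.P177.CBase

/-!
P177, block TH: supply of modules for the hypersurface `B = D / a`: for a finite `R`-module `K`
killed by `a`, `B ⊗[R] K` is finitely presented to all orders, and its syzygies eventually have a
matrix factorisation.
-/

namespace Vale.Agent.P177.TH

open TensorProduct Function

universe u

section Congr

variable {D B : Type u} [CommRing D] [CommRing B] [Algebra D B]

theorem FPn.congr {n : ℕ} {A A' : Type u} [AddCommGroup A] [Module B A] [AddCommGroup A']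
    [Module B A'] (h : FPn B n A) (e : A ≃ₗ[B] A') : FPn B n A' := by
  cases n with
  | zero =>
    obtain ⟨k, f, hf⟩ := h
    exact ⟨k, e.toLinearMap ∘ₗ f, e.surjective.comp hf⟩
  | succ n =>
    obtain ⟨k, f, hf, hK⟩ := h
    refine ⟨k, e.toLinearMap ∘ₗ f, e.surjective.comp hf, ?_⟩
    have h1 : LinearMap.ker (e.toLinearMap ∘ₗ f) = LinearMap.ker f := LinearEquiv.ker_comp e f
    rw [h1]
    exact hK

theorem MF.congr {A A' : Type u} [AddCommGroup A] [Module D A] [AddCommGroup A'] [Module D A']
    (h : MF D A) (e : A ≃ₗ[D] A') : MF D A' := by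
  obtain ⟨Q1, Q0, _, _, _, _, φ, q, h1, h0, hp1, hp0, hφ, hq, hex⟩ := h
  refine ⟨Q1, Q0, inferInstance, inferInstance, inferInstance, inferInstance, φ,
    e.toLinearMap ∘ₗ q, h1, h0, hp1, hp0, hφ, e.surjective.comp hq, ?_⟩
  intro y
  rw [← hex y]
  constructor
  · intro h
    exact e.injective (by rw [map_zero]; exact h)
  · intro h
    change e (q y) = 0
    rw [h, map_zero]

theorem Vn.congr {n : ℕ} {A A' : Type u} [AddCommGroup A] [Module D A] [Module B A]
    [IsScalarTower D B A] [AddCommGroup A'] [Module D A'] [Module B A'] [IsScalarTower D B A']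
    (h : Vn D B n A) (e : A ≃ₗ[B] A') : Vn D B n A' := by
  induction n generalizing A A' with
  | zero =>
    exact MF.congr (D := D) h (e.restrictScalars D)
  | succ n ih =>
    obtain ⟨k, f, hf, hK⟩ := h
    exact ⟨k, e.toLinearMap ∘ₗ f, e.surjective.comp hf,
      ih hK (LinearEquiv.ofEq _ _ (LinearEquiv.ker_comp e f).symm)⟩

end Congr

section Supply

variable {R D B : Type u} [CommRing R] [CommRing D] [CommRing B] [Algebra R D] [Algebra D B]
  [Algebra R B] [IsScalarTower R D B] {a : R}

/-- `D ⊗ K → B ⊗ K`. -/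
noncomputable def toB (B : Type u) [CommRing B] [Algebra D B] [Algebra R B] [IsScalarTower R D B]
    (K : Type u) [AddCommGroup K] [Module R K] : D ⊗[R] K →ₗ[D] B ⊗[R] K :=
  AlgebraTensorModule.map (Algebra.linearMap D B) LinearMap.id

@[simp] theorem toB_tmul {K : Type u} [AddCommGroup K] [Module R K] (d : D) (x : K) :
    toB B K (d ⊗ₜ[R] x) = (algebraMap D B d) ⊗ₜ[R] x := rfl

theorem toB_surj (H : IsHypersurface D B (algebraMap R D a)) (K : Type u) [AddCommGroup K]
    [Module R K] : Surjective (toB (R := R) (D := D) B K) := by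
  intro z
  induction z using TensorProduct.induction_on with
  | zero => exact ⟨0, map_zero _⟩
  | tmul b x =>
    obtain ⟨d, rfl⟩ := H.surj b
    exact ⟨d ⊗ₜ x, rfl⟩
  | add y z hy hz =>
    obtain ⟨y, rfl⟩ := hy
    obtain ⟨z, rfl⟩ := hz
    exact ⟨y + z, map_add _ _ _⟩

theorem toB_inj (H : IsHypersurface D B (algebraMap R D a)) (K : Type u) [AddCommGroup K]
    [Module R K] (hK : ∀ x : K, a • x = 0) : Injective (toB (R := R) (D := D) B K) := by
  rw [injective_iff_map_eq_zero]
  intro z hz
  have hex : Exact (LinearMap.lsmul R D a) (IsScalarTower.toAlgHom R D B).toLinearMap := by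
    intro d
    constructor
    · intro hd
      have h1 : d ∈ RingHom.ker (algebraMap D B) := hd
      rw [H.ker, Ideal.mem_span_singleton] at h1
      obtain ⟨c, rfl⟩ := h1
      exact ⟨c, by rw [LinearMap.lsmul_apply, Algebra.smul_def]⟩
    · rintro ⟨c, rfl⟩
      change algebraMap D B (a • c) = 0
      rw [Algebra.smul_def, map_mul, H.algebraMap_f, zero_mul]
  have h2 := rTensor_exact K hex H.surj
  have h3 : ∀ z : D ⊗[R] K, (IsScalarTower.toAlgHom R D B).toLinearMap.rTensor K z =
      toB B K z := by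
    intro z
    induction z using TensorProduct.induction_on with
    | zero => simp
    | tmul d x => rfl
    | add y z hy hz => rw [map_add, map_add, hy, hz]
  have h4 : ∀ w : D ⊗[R] K, (LinearMap.lsmul R D a).rTensor K w = 0 := by
    intro w
    induction w using TensorProduct.induction_on with
    | zero => simp
    | tmul d x =>
      change (a • d) ⊗ₜ[R] x = 0
      rw [TensorProduct.smul_tmul, hK, TensorProduct.tmul_zero]
    | add y z hy hz => rw [map_add, hy, hz, add_zero]
  obtain ⟨w, rfl⟩ := (h2 _).1 ((h3 z).trans hz)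
  exact h4 w

/-- (S1) -/
theorem exists_toB_equiv (H : IsHypersurface D B (algebraMap R D a)) (K : Type u)
    [AddCommGroup K] [Module R K] (hK : ∀ x : K, a • x = 0) :
    Nonempty (D ⊗[R] K ≃ₗ[D] B ⊗[R] K) :=
  ⟨LinearEquiv.ofBijective (toB B K) ⟨toB_inj H K hK, toB_surj H K⟩⟩

/-- `B ⊗ i` is injective for injective maps of modules killed by `a`. -/
theorem lTensor_inj (H : IsHypersurface D B (algebraMap R D a)) [Module.Flat R D]
    {K K' : Type u} [AddCommGroup K] [Module R K] [AddCommGroup K'] [Module R K']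
    (hK : ∀ x : K, a • x = 0) (i : K' →ₗ[R] K) (hi : Injective i) :
    Injective (i.lTensor B) := by
  have h1 : ∀ z : D ⊗[R] K', i.lTensor B (toB B K' z) = toB B K (i.lTensor D z) := by
    intro z
    induction z using TensorProduct.induction_on with
    | zero => simp
    | tmul d x => rfl
    | add y z hy hz => simp only [map_add, hy, hz]
  rw [injective_iff_map_eq_zero]
  intro z hz
  obtain ⟨z, rfl⟩ := toB_surj H K' z
  rw [h1] at hz
  have h2 : i.lTensor D z = 0 := toB_inj H K hK (hz.trans (map_zero _).symm)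
  have h3 : z = 0 := Module.Flat.lTensor_preserves_injective_linearMap (M := D) i hi
    (h2.trans (map_zero _).symm)
  rw [h3, map_zero]

/-- `B ⊗ P ≃ B ⊗ P/aP`. -/
theorem lTensor_bij (ha : algebraMap R B a = 0) {P P' : Type u} [AddCommGroup P] [Module R P]
    [AddCommGroup P'] [Module R P'] (π : P →ₗ[R] P') (hπ : Surjective π)
    (hk : ∀ x, π x = 0 → ∃ y, x = a • y) : Bijective (π.lTensor B) := by
  refine ⟨?_, LinearMap.lTensor_surjective B hπ⟩
  rw [injective_iff_map_eq_zero]
  intro z hz
  have hex : Exact (LinearMap.ker π).subtype π := by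
    rw [LinearMap.exact_iff, Submodule.range_subtype]
  obtain ⟨w, rfl⟩ := (lTensor_exact B hex hπ _).1 hz
  have h4 : ∀ w : B ⊗[R] (LinearMap.ker π), (LinearMap.ker π).subtype.lTensor B w = 0 := by
    intro w
    induction w using TensorProduct.induction_on with
    | zero => simp
    | tmul b x =>
      obtain ⟨y, hy⟩ := hk x.1 x.2
      change b ⊗ₜ[R] (x.1) = 0
      rw [hy, TensorProduct.tmul_smul, TensorProduct.smul_tmul', Algebra.smul_def, ha, zero_mul,
        TensorProduct.zero_tmul]
    | add y z hy hz => rw [map_add, hy, hz, add_zero]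
  exact h4 w

/-- the syzygy step over `B`. -/
theorem supply_step (H : IsHypersurface D B (algebraMap R D a)) [Module.Flat R D]
    [IsNoetherianRing R] (K : Type u) [AddCommGroup K] [Module R K] [Module.Finite R K]
    (hK : ∀ x : K, a • x = 0) :
    ∃ (k : ℕ) (P' K' : Type u) (_ : AddCommGroup P') (_ : Module R P') (_ : AddCommGroup K')
      (_ : Module R K') (i : K' →ₗ[R] P') (g : P' →ₗ[R] K), Module.Finite R K' ∧
      (∀ x : K', a • x = 0) ∧ Injective i ∧ Surjective g ∧ Exact i g ∧
      (IsSMulRegular R a → ∀ (N : Type u) [AddCommGroup N] [Module R N] (j : ℕ), 2 ≤ j →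
        Subsingleton (TorM R j P' N)) ∧
      ∃ f : (Fin k → B) →ₗ[B] B ⊗[R] K, Surjective f ∧
        Nonempty (B ⊗[R] K' ≃ₗ[B] LinearMap.ker f) := by
  obtain ⟨k, g0, hg0⟩ := Module.Finite.exists_fin' R K
  let P := Fin k → R
  let P' := QuotSMulTop a P
  let π : P →ₗ[R] P' := Submodule.mkQ _
  have hπ : Surjective π := Submodule.mkQ_surjective _
  have hπ0 : ∀ x, π x = 0 → ∃ y, x = a • y := by
    intro x hx
    rw [Submodule.mkQ_apply, Submodule.Quotient.mk_eq_zero,
      Submodule.mem_smul_pointwise_iff_exists] at hx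
    obtain ⟨y, -, hy⟩ := hx
    exact ⟨y, hy.symm⟩
  have hP' : ∀ x : P', a • x = 0 := by
    intro x
    obtain ⟨x, rfl⟩ := hπ x
    rw [← map_smul, Submodule.mkQ_apply, Submodule.Quotient.mk_eq_zero,
      Submodule.mem_smul_pointwise_iff_exists]
    exact ⟨x, trivial, rfl⟩
  let g : P' →ₗ[R] K := Submodule.liftQ _ g0 (by
    intro x hx
    rw [Submodule.mem_smul_pointwise_iff_exists] at hx
    obtain ⟨y, -, rfl⟩ := hx
    rw [LinearMap.mem_ker, map_smul, hK])
  have hg : Surjective g := by
    intro x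
    obtain ⟨y, rfl⟩ := hg0 x
    exact ⟨π y, rfl⟩
  have hfin : Module.Finite R P' := Module.Finite.of_surjective π hπ
  have hexg : Exact (LinearMap.ker g).subtype g := by
    rw [LinearMap.exact_iff, Submodule.range_subtype]
  have hKk : ∀ x : LinearMap.ker g, a • x = 0 := fun x => Subtype.ext (hP' _)
  have haB : algebraMap R B a = 0 := by
    rw [IsScalarTower.algebraMap_apply R D B, H.algebraMap_f]
  let e1 : B ⊗[R] P ≃ₗ[B] B ⊗[R] P' :=
    LinearEquiv.ofBijective (AlgebraTensorModule.map LinearMap.id π)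
      (lTensor_bij haB π hπ hπ0)
  let e : (Fin k → B) ≃ₗ[B] B ⊗[R] P' := (TensorProduct.piScalarRight R B B (Fin k)).symm ≪≫ₗ e1
  let gB : B ⊗[R] P' →ₗ[B] B ⊗[R] K := AlgebraTensorModule.map LinearMap.id g
  have hgB : Surjective gB := LinearMap.lTensor_surjective B hg
  let iB : B ⊗[R] (LinearMap.ker g) →ₗ[B] B ⊗[R] P' :=
    AlgebraTensorModule.map LinearMap.id (LinearMap.ker g).subtype
  have hiB : Injective iB := lTensor_inj H hP' _ (Submodule.injective_subtype _)
  have hexB : ∀ z, gB z = 0 ↔ ∃ w, iB w = z := lTensor_exact B hexg hg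
  refine ⟨k, P', LinearMap.ker g, inferInstance, inferInstance, inferInstance, inferInstance,
    (LinearMap.ker g).subtype, g, inferInstance, hKk, Submodule.injective_subtype _, hg, hexg,
    ?_, gB ∘ₗ e.toLinearMap, hgB.comp e.surjective, ⟨?_⟩⟩
  · intro ha N _ _ j hj
    obtain ⟨j, rfl⟩ : ∃ i, j = i + 1 + 1 := ⟨j - 2, by omega⟩
    have hreg : IsSMulRegular P a := by
      intro x y hxy
      funext l
      exact ha (congrFun hxy l)
    exact tor_subsingleton_step P a hreg N (j + 1) (tor_subsingleton_of_flat _)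
      (tor_subsingleton_of_flat _)
  · -- the kernel
    have h1 : ∀ w, e.symm (iB w) ∈ LinearMap.ker (gB ∘ₗ e.toLinearMap) := by
      intro w
      rw [LinearMap.mem_ker]
      change gB (e (e.symm (iB w))) = 0
      rw [LinearEquiv.apply_symm_apply]
      exact (hexB _).2 ⟨w, rfl⟩
    refine LinearEquiv.ofBijective (LinearMap.codRestrict _ (e.symm.toLinearMap ∘ₗ iB) h1)
      ⟨?_, ?_⟩
    · intro x y hxy
      apply hiB
      apply e.symm.injective
      exact congrArg Subtype.val hxy
    · rintro ⟨z, hz⟩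
      obtain ⟨w, hw⟩ := (hexB _).1 hz
      refine ⟨w, Subtype.ext ?_⟩
      change e.symm (iB w) = z
      rw [hw]
      exact e.symm_apply_apply z

/-- (S2) -/
theorem supply_fpn (H : IsHypersurface D B (algebraMap R D a)) [Module.Flat R D]
    [IsNoetherianRing R] (n : ℕ) (K : Type u) [AddCommGroup K] [Module R K] [Module.Finite R K]
    (hK : ∀ x : K, a • x = 0) : FPn B n (B ⊗[R] K) := by
  induction n generalizing K with
  | zero =>
    obtain ⟨k, P', K', _, _, _, _, i, g, hfin, hK', hi, hg, hex, -, f, hf, -⟩ :=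
      supply_step H K hK
    exact ⟨k, f, hf⟩
  | succ n ih =>
    obtain ⟨k, P', K', _, _, _, _, i, g, hfin, hK', hi, hg, hex, -, f, hf, ⟨e⟩⟩ :=
      supply_step H K hK
    exact ⟨k, f, hf, (ih K' hK').congr e⟩

/-- the case `n = 0` of (S3). -/
theorem supply_mf (H : IsHypersurface D B (algebraMap R D a)) [Module.Flat R D]
    [IsNoetherianRing R] (K : Type u) [AddCommGroup K] [Module R K] [Module.Finite R K]
    (hK : ∀ x : K, a • x = 0)
    (hT : ∀ j, 2 ≤ j → ∀ I : Ideal R, Subsingleton (TorM R j K (R ⧸ I))) :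
    MF D (B ⊗[R] K) := by
  obtain ⟨k, g, hg⟩ := Module.Finite.exists_fin' R K
  have hex : Exact (LinearMap.ker g).subtype g := by
    rw [LinearMap.exact_iff, Submodule.range_subtype]
  have hflat : Module.Flat R (LinearMap.ker g) := by
    refine flat_of_tor_one _ fun I => tor_symm_subsingleton _ _ _ ?_
    obtain ⟨e⟩ := tor_shift (LinearMap.ker g).subtype g (Submodule.injective_subtype _) hg hex
      (R ⧸ I) 0
    have h1 := hT 2 le_rfl I
    exact e.symm.toEquiv.subsingleton
  obtain ⟨l, q1, hq1⟩ := Module.Finite.exists_fin' R (LinearMap.ker g)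
  have hfree : ∀ (m : ℕ) (Q : Type u) [AddCommGroup Q] [Module R Q] (q : (Fin m → R) →ₗ[R] Q),
      Surjective q → FPn D 0 (D ⊗[R] Q) := by
    intro m Q _ _ q hq
    refine ⟨m, (AlgebraTensorModule.map LinearMap.id q) ∘ₗ
      (TensorProduct.piScalarRight R D D (Fin m)).symm.toLinearMap, ?_⟩
    exact (LinearMap.lTensor_surjective D hq).comp (LinearEquiv.surjective _)
  refine MF.congr (D := D) (A := D ⊗[R] K) ?_
    (LinearEquiv.ofBijective (toB B K) ⟨toB_inj H K hK, toB_surj H K⟩)
  refine ⟨D ⊗[R] (LinearMap.ker g), D ⊗[R] (Fin k → R), inferInstance, inferInstance,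
    inferInstance, inferInstance, AlgebraTensorModule.map LinearMap.id (LinearMap.ker g).subtype,
    AlgebraTensorModule.map LinearMap.id g, inferInstance, inferInstance, hfree l _ q1 hq1,
    hfree k _ LinearMap.id surjective_id, ?_, LinearMap.lTensor_surjective D hg,
    lTensor_exact D hex hg⟩
  exact Module.Flat.lTensor_preserves_injective_linearMap (M := D) _
    (Submodule.injective_subtype _)

/-- (S3) -/
theorem supply_vn (H : IsHypersurface D B (algebraMap R D a)) [Module.Flat R D]
    [IsNoetherianRing R] (ha : IsSMulRegular R a) (n : ℕ) (K : Type u) [AddCommGroup K]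
    [Module R K] [Module.Finite R K] (hK : ∀ x : K, a • x = 0)
    (hT : ∀ j, n + 2 ≤ j → ∀ I : Ideal R, Subsingleton (TorM R j K (R ⧸ I))) :
    Vn D B n (B ⊗[R] K) := by
  induction n generalizing K with
  | zero => exact supply_mf H K hK hT
  | succ n ih =>
    obtain ⟨k, P', K', _, _, _, _, i, g, hfin, hK', hi, hg, hex, hP, f, hf, ⟨e⟩⟩ :=
      supply_step H K hK
    refine ⟨k, f, hf, (ih K' hK' ?_).congr e⟩
    intro j hj I
    obtain ⟨δ, -, h2, -⟩ := exists_torDelta i g hi hg hex (R ⧸ I)
    have h3 : Subsingleton (TorM R j P' (R ⧸ I)) := hP ha (R ⧸ I) j (by omega)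
    have h4 := hT (j + 1) (by omega) I
    refine subsingleton_of_forall_eq 0 fun x => ?_
    obtain ⟨y, rfl⟩ := (h2 j x).1 (Subsingleton.elim _ _)
    rw [Subsingleton.elim y 0, map_zero]

/-- (S4) -/
theorem supply_vn_regular [IsRegularLocalRing R] (H : IsHypersurface D B (algebraMap R D a))
    [Module.Flat R D] (ha : IsSMulRegular R a) (d n : ℕ) (hd : ringKrullDim R = d)
    (hn : d ≤ n + 1) (K : Type u) [AddCommGroup K]
    [Module R K] [Module.Finite R K] (hK : ∀ x : K, a • x = 0) :
    Vn D B n (B ⊗[R] K) :=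
  supply_vn H ha n K hK fun j hj I => regular_tor_vanish R d hd K (R ⧸ I) j (by omega)

end Supply

end Vale.Agent.P177.TH
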