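import Vale.Agent.P202.Mix.GeoDefs
import Vale.Agent.P177.ChangeRings

/-!
P177, block TH: additive lengths, null modules, null isomorphisms, Tor of null modules.
-/

namespace Vale.Agent.P177.TH

open Vale.Agent.P202.Mix TensorProduct Function
open scoped ENNReal

universe u

section Len

variable {D : Type u} [CommRing D] (L : AddLen D)
variable {M N K E : Type u} [AddCommGroup M] [Module D M] [AddCommGroup N] [Module D N]
  [AddCommGroup K] [Module D K] [AddCommGroup E] [Module D E]

theorem len_congr (f : M ≃ₗ[D] N) : L.len M = L.len N := by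
  have h := L.add (f : M →ₗ[D] N) (0 : N →ₗ[D] PUnit.{u + 1}) f.injective
    (fun y => ⟨0, Subsingleton.elim _ _⟩) (fun y => ⟨fun _ => f.surjective y, fun _ => rfl⟩)
  rw [L.zero, add_zero] at h
  exact h.symm

theorem len_sub (P : Submodule D M) : L.len M = L.len P + L.len (M ⧸ P) :=
  L.add P.subtype P.mkQ P.injective_subtype P.mkQ_surjective
    (by rw [LinearMap.exact_iff, Submodule.ker_mkQ, Submodule.range_subtype])

theorem len_ker_range (f : M →ₗ[D] N) :
    L.len M = L.len (LinearMap.ker f) + L.len (LinearMap.range f) := by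
  rw [len_sub L (LinearMap.ker f), len_congr L f.quotKerEquivRange]

theorem len_le_of_inj (f : M →ₗ[D] N) (hf : Injective f) : L.len M ≤ L.len N := by
  rw [len_congr L (LinearEquiv.ofInjective f hf), len_sub L (LinearMap.range f)]
  exact le_self_add

theorem len_range_le (f : M →ₗ[D] N) : L.len (LinearMap.range f) ≤ L.len M := by
  rw [len_ker_range L f]
  exact le_add_self

theorem len_le_of_surj (f : M →ₗ[D] N) (hf : Surjective f) : L.len N ≤ L.len M := by
  have h := len_range_le L f
  rwa [LinearMap.range_eq_top.2 hf, len_congr L (Submodule.topEquiv (R := D) (M := N))] at h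

theorem len_of_subsingleton [Subsingleton M] : L.len M = 0 := by
  have e : M ≃ₗ[D] PUnit.{u + 1} :=
    { toFun := fun _ => PUnit.unit
      map_add' := fun _ _ => rfl
      map_smul' := fun _ _ => rfl
      invFun := fun _ => 0
      left_inv := fun _ => Subsingleton.elim _ _
      right_inv := fun _ => rfl }
  rw [len_congr L e, L.zero]

/-- null modules. -/
def Null (M : Type u) [AddCommGroup M] [Module D M] : Prop := L.len M = 0

variable {L}

theorem Null.of_inj (h : Null L N) (f : M →ₗ[D] N) (hf : Injective f) : Null L M :=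
  le_antisymm ((len_le_of_inj L f hf).trans h.le) zero_le

theorem Null.of_surj (h : Null L M) (f : M →ₗ[D] N) (hf : Surjective f) : Null L N :=
  le_antisymm ((len_le_of_surj L f hf).trans h.le) zero_le

theorem Null.congr (h : Null L M) (f : M ≃ₗ[D] N) : Null L N :=
  h.of_surj f.toLinearMap f.surjective

theorem null_of_subsingleton [Subsingleton M] : Null L M := len_of_subsingleton L

theorem Null.sub (h : Null L M) (P : Submodule D M) : Null L P := h.of_inj P.subtype P.injective_subtype

theorem Null.quot (h : Null L M) (P : Submodule D M) : Null L (M ⧸ P) :=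
  h.of_surj P.mkQ P.mkQ_surjective

theorem null_iff_ker_range (f : M →ₗ[D] N) :
    Null L M ↔ Null L (LinearMap.ker f) ∧ Null L (LinearMap.range f) := by
  unfold Null
  rw [len_ker_range L f, add_eq_zero]

theorem Null.of_sub_quot (P : Submodule D M) (h : Null L P) (h' : Null L (M ⧸ P)) : Null L M := by
  unfold Null at *
  rw [len_sub L P, h, h', add_zero]

/-- the middle of an exact sequence. -/
theorem Null.of_exact (f : M →ₗ[D] N) (g : N →ₗ[D] K) (h : Exact f g) (hM : Null L M)
    (hK : Null L K) : Null L N := by
  rw [null_iff_ker_range g]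
  refine ⟨?_, hK.sub _⟩
  have h1 : LinearMap.ker g = LinearMap.range f := (LinearMap.exact_iff.1 h)
  rw [h1]
  exact hM.of_surj f.rangeRestrict f.surjective_rangeRestrict

theorem Null.submodule_mono {P Q : Submodule D M} (hPQ : P ≤ Q) (h : Null L Q) : Null L P :=
  h.of_inj (Submodule.inclusion hPQ) (Submodule.inclusion_injective hPQ)

theorem null_zero_submodule : Null L (⊥ : Submodule D M) := null_of_subsingleton

theorem Null.prod (h : Null L M) (h' : Null L N) : Null L (M × N) :=
  Null.of_exact (LinearMap.inl D M N) (LinearMap.snd D M N) (by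
    intro x
    constructor
    · intro hx
      exact ⟨x.1, Prod.ext rfl hx.symm⟩
    · rintro ⟨y, rfl⟩
      rfl) h h'

theorem Null.pi_fin (h : Null L M) (n : ℕ) : Null L (Fin n → M) := by
  induction n with
  | zero => exact null_of_subsingleton
  | succ n ih =>
    have := h.prod ih
    refine this.congr (Fin.consLinearEquiv D (fun _ : Fin (n + 1) => M))

variable (L) in
/-- comparison of the terms of an exact sequence with null neighbours. -/
theorem len_eq_of_null (f : M →ₗ[D] N) (g : N →ₗ[D] K) (h : K →ₗ[D] E) (hfg : Exact f g)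
    (hgh : Exact g h) (hM : Null L M) (hE : Null L E) : L.len N = L.len K := by
  have h1 : L.len (LinearMap.ker g) = 0 := by
    rw [LinearMap.exact_iff.1 hfg]
    exact hM.of_surj f.rangeRestrict f.surjective_rangeRestrict
  have h2 : L.len (LinearMap.range h) = 0 := hE.sub _
  rw [len_ker_range L g, h1, zero_add, len_ker_range L h, h2, add_zero, LinearMap.exact_iff.1 hgh]

/-- null isomorphisms. -/
structure NIso (L : AddLen D) (f : M →ₗ[D] N) : Prop where
  ker : Null L (LinearMap.ker f)
  coker : Null L (N ⧸ LinearMap.range f)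

theorem NIso.len_eq {f : M →ₗ[D] N} (h : NIso L f) : L.len M = L.len N := by
  have h1 : L.len (LinearMap.ker f) = 0 := h.ker
  have h2 : L.len (N ⧸ LinearMap.range f) = 0 := h.coker
  rw [len_ker_range L f, len_sub L (LinearMap.range f), h1, h2, zero_add, add_zero]

end Len

section Res

variable {D : Type u} [CommRing D] (L : AddLen D) (B : Type u) [CommRing B] [Algebra D B]

/-- the restriction of an additive length along `D → B`. -/
noncomputable def resLen : AddLen B where
  len M _ _ := @AddLen.len D _ L M _ (Module.compHom M (algebraMap D B))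
  zero := by
    let _ : Module D PUnit.{u + 1} := Module.compHom PUnit.{u + 1} (algebraMap D B)
    exact len_of_subsingleton L
  add {M N K} _ _ _ _ _ _ f g hf hg h := by
    let _ : Module D M := Module.compHom M (algebraMap D B)
    let _ : Module D N := Module.compHom N (algebraMap D B)
    let _ : Module D K := Module.compHom K (algebraMap D B)
    let f' : M →ₗ[D] N := { toFun := f, map_add' := map_add f, map_smul' := fun r x => map_smul f (algebraMap D B r) x }
    let g' : N →ₗ[D] K := { toFun := g, map_add' := map_add g, map_smul' := fun r x => map_smul g (algebraMap D B r) x }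
    exact L.add f' g' hf hg h

theorem resLen_len (M : Type u) [AddCommGroup M] [Module D M] [Module B M] [IsScalarTower D B M] :
    (resLen L B).len M = L.len M := by
  have h : ∀ (i j : Module D M), (∀ (r : D) (x : M), i.smul r x = j.smul r x) →
      @AddLen.len D _ L M _ i = @AddLen.len D _ L M _ j := by
    intro i j hij
    have : i = j := Module.ext' i j hij
    rw [this]
  exact h _ _ fun r x => algebraMap_smul B r x

end Res

section Tor

variable {B : Type u} [CommRing B] {L : AddLen B}

/-- finite presentation up to degree `n`. -/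
def FPn (B : Type u) [CommRing B] : ℕ → ∀ (A : Type u) [AddCommGroup A] [Module B A], Prop
  | 0 => fun A _ _ => ∃ (k : ℕ) (f : (Fin k → B) →ₗ[B] A), Surjective f
  | n + 1 => fun A _ _ => ∃ (k : ℕ) (f : (Fin k → B) →ₗ[B] A), Surjective f ∧
      FPn B n (LinearMap.ker f)

theorem null_tensor_of_fp {A Y : Type u} [AddCommGroup A] [Module B A] [AddCommGroup Y]
    [Module B Y] (hA : FPn B 0 A) (hY : Null L Y) : Null L (A ⊗[B] Y) := by
  obtain ⟨k, f, hf⟩ := hA
  have h1 : Null L ((Fin k → B) ⊗[B] Y) := by
    refine (hY.pi_fin k).congr ?_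
    exact (TensorProduct.comm B _ _ ≪≫ₗ TensorProduct.piScalarRight B B Y (Fin k)).symm
  exact h1.of_surj (f.rTensor Y) (LinearMap.rTensor_surjective Y hf)

theorem FPn.zero {n : ℕ} {A : Type u} [AddCommGroup A] [Module B A] (hA : FPn B n A) :
    FPn B 0 A := by
  cases n with
  | zero => exact hA
  | succ n =>
    obtain ⟨k, f, hf, -⟩ := hA
    exact ⟨k, f, hf⟩

theorem null_tor_one {K F A Y : Type u} [AddCommGroup K] [Module B K] [AddCommGroup F]
    [Module B F] [Module.Flat B F] [AddCommGroup A] [Module B A] [AddCommGroup Y] [Module B Y]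
    (i : K →ₗ[B] F) (g : F →ₗ[B] A) (hi : Injective i) (hg : Surjective g) (h : Exact i g)
    (hK : FPn B 0 K) (hY : Null L Y) : Null L (TorM B 1 A Y) := by
  obtain ⟨e⟩ := tor_one i g hi hg h Y
  have h1 : Null L (LinearMap.ker (i.rTensor Y)) :=
    Null.of_inj (null_tensor_of_fp hK hY) (Submodule.subtype _) (Submodule.injective_subtype _)
  exact h1.congr e.symm

/-- `Tor` of a null module. -/
theorem null_tor (n : ℕ) {A Y : Type u} [AddCommGroup A] [Module B A] [AddCommGroup Y]
    [Module B Y] (hA : FPn B n A) (hY : Null L Y) : Null L (TorM B n A Y) := by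
  induction n generalizing A with
  | zero => exact (null_tensor_of_fp hA hY).congr (torZero A Y).symm
  | succ n ih =>
    obtain ⟨k, f, hf, hK⟩ := hA
    have hex : Exact (LinearMap.ker f).subtype f := by
      rw [LinearMap.exact_iff, Submodule.range_subtype]
    cases n with
    | zero =>
      exact null_tor_one (LinearMap.ker f).subtype f (Submodule.injective_subtype _) hf hex hK hY
    | succ n =>
      obtain ⟨e⟩ := tor_shift (LinearMap.ker f).subtype f (Submodule.injective_subtype _) hf hex Y n
      exact (ih hK).congr e.symm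

theorem null_tor' (n : ℕ) {A Y : Type u} [AddCommGroup A] [Module B A] [AddCommGroup Y]
    [Module B Y] (hA : FPn B n A) (hY : Null L Y) : Null L (TorM B n Y A) := by
  obtain ⟨e⟩ := tor_symm (R := B) n A Y
  exact (null_tor n hA hY).congr e

variable {X Y Z : Type u} [AddCommGroup X] [Module B X] [AddCommGroup Y] [Module B Y]
  [AddCommGroup Z] [Module B Z] {A : Type u} [AddCommGroup A] [Module B A]

theorem torMap_zero_surjective (g : Y →ₗ[B] Z) (hg : Surjective g) :
    Surjective (torMap 0 g A) := by
  intro z
  obtain ⟨y, hy⟩ := LinearMap.rTensor_surjective A hg (torZero Z A z)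
  refine ⟨(torZero Y A).symm y, ?_⟩
  apply (torZero Z A).injective
  rw [torZero_naturality, LinearEquiv.apply_symm_apply, hy]

/-- quotient by a null submodule. -/
theorem tor_len_quot (hA : ∀ n, FPn B n A) (f : X →ₗ[B] Y) (g : Y →ₗ[B] Z) (hf : Injective f)
    (hg : Surjective g) (h : Exact f g) (hX : Null L X) (n : ℕ) :
    L.len (TorM B n Y A) = L.len (TorM B n Z A) := by
  obtain ⟨δ, h1, h2, h3⟩ := exists_torDelta f g hf hg h A
  cases n with
  | zero =>
    refine len_eq_of_null L (torMap 0 f A) (torMap 0 g A) (0 : TorM B 0 Z A →ₗ[B] PUnit.{u + 1})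
      (h3 0) ?_ (null_tor' 0 (hA 0) hX) null_of_subsingleton
    intro z
    exact ⟨fun _ => torMap_zero_surjective g hg z, fun _ => rfl⟩
  | succ n =>
    exact len_eq_of_null L (torMap (n + 1) f A) (torMap (n + 1) g A) (δ n) (h3 (n + 1)) (h1 n)
      (null_tor' (n + 1) (hA _) hX) (null_tor' n (hA _) hX)

/-- submodule with null quotient. -/
theorem tor_len_sub (hA : ∀ n, FPn B n A) (f : X →ₗ[B] Y) (g : Y →ₗ[B] Z) (hf : Injective f)
    (hg : Surjective g) (h : Exact f g) (hZ : Null L Z) (n : ℕ) :
    L.len (TorM B n X A) = L.len (TorM B n Y A) := by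
  obtain ⟨δ, h1, h2, h3⟩ := exists_torDelta f g hf hg h A
  exact len_eq_of_null L (δ n) (torMap n f A) (torMap n g A) (h2 n) (h3 n)
    (null_tor' (n + 1) (hA _) hZ) (null_tor' n (hA _) hZ)

theorem tor_len_of_niso (hA : ∀ n, FPn B n A) (f : X →ₗ[B] Y) (hf : NIso L f) (n : ℕ) :
    L.len (TorM B n X A) = L.len (TorM B n Y A) := by
  rw [tor_len_quot hA (LinearMap.ker f).subtype f.rangeRestrict (Submodule.injective_subtype _)
    f.surjective_rangeRestrict (by
      rw [LinearMap.exact_iff, Submodule.range_subtype, LinearMap.ker_rangeRestrict]) hf.ker n]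
  exact tor_len_sub hA (LinearMap.range f).subtype (LinearMap.range f).mkQ
    (Submodule.injective_subtype _) (Submodule.mkQ_surjective _) (by
      rw [LinearMap.exact_iff, Submodule.range_subtype, Submodule.ker_mkQ]) hf.coker n

end Tor

end Vale.Agent.P177.TH
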