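import Vale.Agent.P177.TH.Basic

/-!
P177, block TH: Euler characteristics of Tor with respect to an additive length: additivity.
-/

namespace Vale.Agent.P177.TH

open Vale.Agent.P202.Mix TensorProduct Function
open scoped ENNReal

universe u

variable {B : Type u} [CommRing B] (L : AddLen B)

/-- Euler characteristic of `Tor^B(X, A)` with respect to an additive length. -/
noncomputable def chi (n : ℕ) (X A : Type u) [AddCommGroup X] [Module B X] [AddCommGroup A]
    [Module B A] : ℝ :=
  ∑ i ∈ Finset.range n, (-1 : ℝ) ^ i * (L.len (TorM B i X A)).toReal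

theorem tele (T : ℕ → ℝ) (h0 : T 0 = 0) (n : ℕ) :
    ∑ i ∈ Finset.range n, (-1 : ℝ) ^ i * (T (i + 1) + T i) = - (-1 : ℝ) ^ n * T n := by
  induction n with
  | zero => simp [h0]
  | succ n ih =>
    rw [Finset.sum_range_succ, ih, pow_succ]
    ring

variable {L}
variable {X Y Z : Type u} [AddCommGroup X] [Module B X] [AddCommGroup Y] [Module B Y]
  [AddCommGroup Z] [Module B Z] {A : Type u} [AddCommGroup A] [Module B A]

/-- Additivity of the Euler characteristic. -/
theorem chi_add (n : ℕ) (f : X →ₗ[B] Y) (g : Y →ₗ[B] Z) (hf : Injective f) (hg : Surjective g)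
    (h : Exact f g) (hX : ∀ i, L.len (TorM B i X A) < ⊤) (hZ : ∀ i, L.len (TorM B i Z A) < ⊤)
    (hn : Null L (TorM B n Z A)) :
    (∀ i, L.len (TorM B i Y A) < ⊤) ∧ chi L n Y A = chi L n X A + chi L n Z A := by
  obtain ⟨δ, h1, h2, h3⟩ := exists_torDelta f g hf hg h A
  set r : ℕ → ℝ≥0∞ := fun i => L.len (LinearMap.range (torMap i f A)) with hr
  set s : ℕ → ℝ≥0∞ := fun i => L.len (LinearMap.range (torMap i g A)) with hs
  let T : ℕ → ℝ≥0∞ := fun i => match i with
    | 0 => 0
    | i + 1 => L.len (LinearMap.range (δ i))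
  have ha : ∀ i, L.len (TorM B i X A) = T (i + 1) + r i := by
    intro i
    rw [len_ker_range L (torMap i f A), LinearMap.exact_iff.1 (h2 i)]
  have hb : ∀ i, L.len (TorM B i Y A) = r i + s i := by
    intro i
    rw [len_ker_range L (torMap i g A), LinearMap.exact_iff.1 (h3 i)]
  have hc : ∀ i, L.len (TorM B i Z A) = s i + T i := by
    intro i
    cases i with
    | zero =>
      have h4 : s 0 = L.len (TorM B 0 Z A) := by
        rw [hs]
        dsimp only
        rw [LinearMap.range_eq_top.2 (torMap_zero_surjective g hg)]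
        exact len_congr L (Submodule.topEquiv (R := B) (M := TorM B 0 Z A))
      change _ = s 0 + 0
      rw [add_zero, h4]
    | succ i =>
      rw [len_ker_range L (δ i), LinearMap.exact_iff.1 (h1 i)]
  have hrf : ∀ i, r i ≠ ⊤ := fun i => ((le_add_self.trans (ha i).ge).trans_lt (hX i)).ne
  have hsf : ∀ i, s i ≠ ⊤ := fun i => ((le_self_add.trans (hc i).ge).trans_lt (hZ i)).ne
  have hTf : ∀ i, T i ≠ ⊤ := fun i => ((le_add_self.trans (hc i).ge).trans_lt (hZ i)).ne
  refine ⟨fun i => ?_, ?_⟩
  · rw [hb]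
    exact ENNReal.add_lt_top.2 ⟨(hrf i).lt_top, (hsf i).lt_top⟩
  · have hTn : T n = 0 := by
      have h5 : L.len (TorM B n Z A) = 0 := hn
      rw [hc, add_eq_zero] at h5
      exact h5.2
    have htel := tele (fun i => (T i).toReal) (by simp [T]) n
    rw [hTn, ENNReal.toReal_zero, mul_zero] at htel
    unfold chi
    rw [← sub_eq_zero, ← Finset.sum_add_distrib, ← Finset.sum_sub_distrib, ← neg_eq_zero, ← htel,
      ← Finset.sum_neg_distrib]
    refine Finset.sum_congr rfl fun i _ => ?_
    rw [ha, hb, hc, ENNReal.toReal_add (hTf (i + 1)) (hrf i), ENNReal.toReal_add (hrf i) (hsf i),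
      ENNReal.toReal_add (hsf i) (hTf i)]
    ring

theorem chi_of_niso (hA : ∀ n, FPn B n A) (f : X →ₗ[B] Y) (hf : NIso L f) (n : ℕ) :
    chi L n X A = chi L n Y A := by
  unfold chi
  exact Finset.sum_congr rfl fun i _ => by rw [tor_len_of_niso hA f hf i]

/-- `chi` of a subsingleton. -/
theorem chi_of_null (hA : ∀ n, FPn B n A) (hX : Null L X) (n : ℕ) :
    chi L n X A = 0 := by
  unfold chi
  refine Finset.sum_eq_zero fun i _ => ?_
  have h : L.len (TorM B i X A) = 0 := null_tor' i (hA i) hX
  rw [h, ENNReal.toReal_zero, mul_zero]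

/-- Additivity up to null modules: right exact sequences with null kernel. -/
theorem chi_add_null (hA : ∀ n, FPn B n A) (n : ℕ) (f : X →ₗ[B] Y) (g : Y →ₗ[B] Z)
    (hf : Null L (LinearMap.ker f)) (hg : Surjective g)
    (h : Exact f g) (hX : ∀ i, L.len (TorM B i X A) < ⊤) (hZ : ∀ i, L.len (TorM B i Z A) < ⊤)
    (hn : Null L (TorM B n Z A)) :
    (∀ i, L.len (TorM B i Y A) < ⊤) ∧ chi L n Y A = chi L n X A + chi L n Z A := by
  have h1 : NIso L f.rangeRestrict := by
    refine ⟨by rwa [LinearMap.ker_rangeRestrict], ?_⟩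
    have : Subsingleton (LinearMap.range f ⧸ LinearMap.range f.rangeRestrict) := by
      rw [LinearMap.range_eq_top.2 f.surjective_rangeRestrict]
      exact Submodule.Quotient.subsingleton_iff.2 rfl
    exact null_of_subsingleton
  have h2 := chi_add (L := L) (A := A) n (LinearMap.range f).subtype g
    (Submodule.injective_subtype _) hg (by
      rw [LinearMap.exact_iff, Submodule.range_subtype]
      exact LinearMap.exact_iff.1 h) (fun i => by rw [← tor_len_of_niso hA _ h1 i]; exact hX i)
      hZ hn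
  rw [← chi_of_niso hA _ h1 n] at h2
  exact h2

end Vale.Agent.P177.TH
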