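import Vale.Agent.P177.TH.Add
import Vale.Agent.P177.EulerTransfer

/-!
P177, block TH: change of rings for Tor along a quotient by a regular element, additive lengths,
up to null modules.
-/

namespace Vale.Agent.P177.TH

open Vale.Agent.P202.Mix TensorProduct Function
open scoped ENNReal

universe u

variable {D B : Type u} [CommRing D] [CommRing B] [Algebra D B] {α : D} (L : AddLen D)

section basic

variable {K F M X Y N : Type u} [AddCommGroup K] [Module D K] [AddCommGroup F] [Module D F]
  [AddCommGroup M] [Module D M]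
  [AddCommGroup X] [Module D X] [Module B X] [IsScalarTower D B X]
  [AddCommGroup Y] [Module D Y] [Module B Y] [IsScalarTower D B Y]
  [AddCommGroup N] [Module D N] [Module B N] [IsScalarTower D B N]

theorem len_tensor_baseChange {φ : K →ₗ[D] X} (hφ : IsBaseChange B φ) (N : Type u)
    [AddCommGroup N] [Module D N] [Module B N] [IsScalarTower D B N] :
    L.len (K ⊗[D] N) = (resLen L B).len (X ⊗[B] N) := by
  obtain ⟨e, -⟩ := exists_cancel hφ N
  rw [len_congr L (TensorProduct.comm D K N), len_congr (resLen L B) (TensorProduct.comm B X N),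
    len_congr (resLen L B) e, resLen_len]

/-- comparison of degree one kernels. -/
theorem len_ker_baseChange
    {φ : K →ₗ[D] X} (hφ : IsBaseChange B φ) {ψ : F →ₗ[D] Y} (hψ : IsBaseChange B ψ)
    (i : K →ₗ[D] F) (j : X →ₗ[B] Y) (hij : ∀ k, j (φ k) = ψ (i k))
    (N : Type u) [AddCommGroup N] [Module D N] [Module B N] [IsScalarTower D B N] :
    L.len (LinearMap.ker (i.rTensor N)) =
      (resLen L B).len (LinearMap.ker (j.rTensor N)) := by
  obtain ⟨e1⟩ := ker_comm (N := N) i
  obtain ⟨e2⟩ := ker_comm (N := N) j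
  rw [len_congr L e1, len_congr (resLen L B) e2]
  let θ : N ⊗[D] K →ₗ[B] N ⊗[D] F := AlgebraTensorModule.map LinearMap.id i
  have h1 : L.len (LinearMap.ker (i.lTensor N)) = L.len (LinearMap.ker θ) := by
    have e : LinearMap.ker (i.lTensor N) ≃ₗ[D] LinearMap.ker θ :=
      { toFun := fun x => ⟨x.1, x.2⟩
        invFun := fun x => ⟨x.1, x.2⟩
        left_inv := fun _ => rfl
        right_inv := fun _ => rfl
        map_add' := fun _ _ => rfl
        map_smul' := fun _ _ => rfl }
    exact len_congr L e
  rw [h1, ← resLen_len L B]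
  obtain ⟨eX, heX⟩ := exists_cancel hφ N
  obtain ⟨eY, heY⟩ := exists_cancel hψ N
  have hX : ∀ z : N ⊗[D] K, j.lTensor N (eX.symm z) = eY.symm (θ z) := by
    intro z
    induction z using TensorProduct.induction_on with
    | zero => simp
    | tmul n k =>
      have a1 : eX.symm (n ⊗ₜ[D] k) = n ⊗ₜ[B] φ k := by
        rw [LinearEquiv.symm_apply_eq, heX]
      have a2 : eY.symm (n ⊗ₜ[D] i k) = n ⊗ₜ[B] ψ (i k) := by
        rw [LinearEquiv.symm_apply_eq, heY]
      have a3 : θ (n ⊗ₜ[D] k) = n ⊗ₜ[D] i k := by simp [θ]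
      rw [a1, a3, a2, LinearMap.lTensor_tmul, hij]
    | add a b ha hb => rw [map_add, map_add, ha, hb, map_add, map_add]
  obtain ⟨e3⟩ := ker_equiv eX.symm eY.symm θ (j.lTensor N) hX
  exact len_congr (resLen L B) e3

/-- Change of rings for Tor: honest version. -/
theorem len_tor_baseChange (H : IsHypersurface D B α) (n : ℕ)
    {K X : Type u} [AddCommGroup K] [Module D K]
    [AddCommGroup X] [Module D X] [Module B X] [IsScalarTower D B X]
    {φ : K →ₗ[D] X} (hφ : IsBaseChange B φ) (hK : IsSMulRegular K α)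
    (N : Type u) [AddCommGroup N] [Module D N] [Module B N] [IsScalarTower D B N] :
    L.len (TorM D n K N) = (resLen L B).len (TorM B n X N) := by
  induction n generalizing K X with
  | zero =>
    rw [len_congr L (torZero K N), len_tensor_baseChange L hφ N,
      len_congr (resLen L B) (torZero X N)]
  | succ n ih =>
    obtain ⟨F, K1, _, _, _, _, i, g, hF, hi, hg, h⟩ := exists_cover D K
    obtain ⟨Y, _, _, _, _, ψ, hψ⟩ := exists_baseChange (R := D) B F
    obtain ⟨X1, _, _, _, _, φ1, hφ1⟩ := exists_baseChange (R := D) B K1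
    let j : X1 →ₗ[B] Y := hφ1.lift (ψ ∘ₗ i)
    have hj : ∀ k, j (φ1 k) = ψ (i k) := fun k => hφ1.lift_eq _ k
    let q : Y →ₗ[B] X := hψ.lift (φ ∘ₗ g)
    have hq : ∀ y, q (ψ y) = φ (g y) := fun y => hψ.lift_eq _ y
    have hjinj : Injective j := H.baseChange_injective hφ1 hψ i j hj g hi h hK
    obtain ⟨hex, hqs⟩ := H.baseChange_exact hφ1 hψ hφ i j hj g hg q hq h
    have hYflat : Module.Flat B Y := Module.Flat.isBaseChange D B F Y hψ
    have hFr : IsSMulRegular F α := H.regular_of_flat F
    have hK1 : IsSMulRegular K1 α := by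
      intro a b hab
      apply hi
      apply hFr
      simpa using congrArg i hab
    cases n with
    | zero =>
      obtain ⟨e1⟩ := tor_one i g hi hg h N
      obtain ⟨e2⟩ := tor_one j q hjinj hqs hex N
      rw [len_congr L e1, len_congr (resLen L B) e2]
      exact len_ker_baseChange L hφ1 hψ i j hj N
    | succ n =>
      obtain ⟨e1⟩ := tor_shift i g hi hg h N n
      obtain ⟨e2⟩ := tor_shift j q hjinj hqs hex N n
      rw [len_congr L e1, len_congr (resLen L B) e2]
      exact ih hφ1 hK1

end basic

section null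

variable {L}

/-- the `α`-torsion. -/
abbrev tors (α : D) (X : Type u) [AddCommGroup X] [Module D X] : Submodule D X :=
  LinearMap.ker (LinearMap.lsmul D X α)

theorem mem_tors {X : Type u} [AddCommGroup X] [Module D X] {x : X} :
    x ∈ tors α X ↔ α • x = 0 := Iff.rfl

theorem null_range_of_factor {P Q Z : Type u} [AddCommGroup P] [Module D P] [AddCommGroup Q]
    [Module D Q] [AddCommGroup Z] [Module D Z] (g : P →ₗ[D] Q) (hg : Surjective g)
    (s : P →ₗ[D] Z) (h : LinearMap.ker g ≤ LinearMap.ker s) (hQ : Null L Q) :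
    Null L (LinearMap.range s) := by
  let t : Q →ₗ[D] Z := (LinearMap.ker g).liftQ s h ∘ₗ
    (g.quotKerEquivOfSurjective hg).symm.toLinearMap
  have ht : ∀ y, t (g y) = s y := by
    intro y
    have h1 : (g.quotKerEquivOfSurjective hg).symm (g y) = (LinearMap.ker g).mkQ y := by
      rw [LinearEquiv.symm_apply_eq]
      rfl
    change (LinearMap.ker g).liftQ s h ((g.quotKerEquivOfSurjective hg).symm (g y)) = _
    rw [h1, Submodule.mkQ_apply, Submodule.liftQ_apply]
  have hr : LinearMap.range s = LinearMap.range t := by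
    ext z
    constructor
    · rintro ⟨y, rfl⟩
      exact ⟨g y, ht y⟩
    · rintro ⟨q, rfl⟩
      obtain ⟨y, rfl⟩ := hg q
      exact ⟨y, (ht y).symm⟩
  rw [hr]
  exact hQ.of_surj t.rangeRestrict t.surjective_rangeRestrict

/-- the kernel of `K/αK → F/αF` is a quotient of the `α`-torsion of `M = F/K`. -/
theorem null_ker_baseChange (H : IsHypersurface D B α)
    {K F M X Y : Type u} [AddCommGroup K] [Module D K] [AddCommGroup F] [Module D F]
    [AddCommGroup M] [Module D M]
    [AddCommGroup X] [Module D X] [Module B X] [IsScalarTower D B X]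
    [AddCommGroup Y] [Module D Y] [Module B Y] [IsScalarTower D B Y]
    {φ : K →ₗ[D] X} (hφ : IsBaseChange B φ) {ψ : F →ₗ[D] Y} (hψ : IsBaseChange B ψ)
    (i : K →ₗ[D] F) (j : X →ₗ[B] Y) (hij : ∀ k, j (φ k) = ψ (i k))
    (g : F →ₗ[D] M) (hi : Injective i) (hg : Surjective g) (h : Exact i g)
    (hM : Null L (tors α M)) :
    Null (resLen L B) (LinearMap.ker j) := by
  let P : Submodule D F := (tors α M).comap g
  have hP : ∀ y : P, ∃ k, i k = α • (y : F) := by
    intro y
    refine (h _).1 ?_
    rw [map_smul]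
    exact y.2
  choose s0 hs0 using hP
  let s : P →ₗ[D] X :=
    φ ∘ₗ
    { toFun := s0
      map_add' := fun x y => hi (by rw [map_add, hs0, hs0, hs0, Submodule.coe_add, smul_add])
      map_smul' := fun r x => hi (by
        rw [map_smul, hs0, hs0, RingHom.id_apply, Submodule.coe_smul, smul_comm]) }
  have hs : ∀ y : P, s y = φ (s0 y) := fun _ => rfl
  let g' : P →ₗ[D] tors α M := g.restrict fun x hx => hx
  have hg' : Surjective g' := by
    rintro ⟨m, hm⟩
    obtain ⟨y, rfl⟩ := hg m
    exact ⟨⟨y, hm⟩, rfl⟩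
  have hker : LinearMap.ker g' ≤ LinearMap.ker s := by
    intro y hy
    have h0 : g (y : F) = 0 := congrArg Subtype.val (LinearMap.mem_ker.1 hy)
    obtain ⟨k, hk⟩ := (h _).1 h0
    have h1 : s0 y = α • k := hi (by rw [hs0, map_smul, hk])
    rw [LinearMap.mem_ker, hs, h1, H.baseChange_smul]
  have h2 := null_range_of_factor g' hg' s hker hM
  have hr : ∀ z : X, j z = 0 ↔ z ∈ LinearMap.range s := by
    intro z
    constructor
    · intro hz
      obtain ⟨x, rfl⟩ := H.baseChange_surj hφ z
      rw [hij] at hz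
      obtain ⟨y, hy⟩ := H.baseChange_eq_zero hψ _ hz
      have hyP : y ∈ P := by
        change α • g y = 0
        rw [← map_smul, ← hy]
        exact (h _).2 ⟨x, rfl⟩
      refine ⟨⟨y, hyP⟩, ?_⟩
      rw [hs]
      congr 1
      exact hi (by rw [hs0, hy])
    · rintro ⟨y, rfl⟩
      rw [hs, hij, hs0, H.baseChange_smul]
  have e : LinearMap.range s ≃ₗ[D] LinearMap.ker j :=
    { toFun := fun x => ⟨x.1, (hr _).2 x.2⟩
      invFun := fun x => ⟨x.1, (hr _).1 x.2⟩
      left_inv := fun _ => rfl
      right_inv := fun _ => rfl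
      map_add' := fun _ _ => rfl
      map_smul' := fun _ _ => rfl }
  have h3 : Null L (LinearMap.ker j) := h2.congr e
  unfold Null
  rw [resLen_len]
  exact h3

theorem len_ker_comp (L : AddLen D) {X Y Z : Type u} [AddCommGroup X] [Module D X]
    [AddCommGroup Y] [Module D Y] [AddCommGroup Z] [Module D Z] (u : X →ₗ[D] Y) (v : Y →ₗ[D] Z)
    (hu : Surjective u) :
    L.len (LinearMap.ker (v ∘ₗ u)) = L.len (LinearMap.ker u) + L.len (LinearMap.ker v) := by
  have hle : LinearMap.ker u ≤ LinearMap.ker (v ∘ₗ u) := LinearMap.ker_le_ker_comp u v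
  have hres : ∀ x ∈ LinearMap.ker (v ∘ₗ u), u x ∈ LinearMap.ker v := fun x hx => hx
  refine L.add (Submodule.inclusion hle) (u.restrict hres)
    (Submodule.inclusion_injective hle) ?_ ?_
  · rintro ⟨y, hy⟩
    obtain ⟨x, rfl⟩ := hu y
    exact ⟨⟨x, hy⟩, rfl⟩
  · rintro ⟨x, hx⟩
    constructor
    · intro h
      have h' : u x = 0 := congrArg Subtype.val h
      exact ⟨⟨x, h'⟩, rfl⟩
    · rintro ⟨⟨y, hy⟩, hyx⟩
      apply Subtype.ext
      have h1 : y = x := congrArg Subtype.val hyx
      subst h1
      exact hy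

theorem null_ker_rTensor {X Y N : Type u} [AddCommGroup X] [Module B X] [AddCommGroup Y]
    [Module B Y] [AddCommGroup N] [Module B N] {LB : AddLen B} (hN : FPn B 0 N)
    (j : X →ₗ[B] Y) (hj : Surjective j) (h : Null LB (LinearMap.ker j)) :
    Null LB (LinearMap.ker (j.rTensor N)) := by
  have hex : Exact ((LinearMap.ker j).subtype.rTensor N) (j.rTensor N) :=
    rTensor_exact N (by rw [LinearMap.exact_iff, Submodule.range_subtype]) hj
  have h1 : Null LB (N ⊗[B] (LinearMap.ker j)) := null_tensor_of_fp hN h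
  have h2 : Null LB ((LinearMap.ker j) ⊗[B] N) := h1.congr (TensorProduct.comm B _ _)
  rw [LinearMap.exact_iff.1 hex]
  exact h2.of_surj (LinearMap.rangeRestrict _) (LinearMap.surjective_rangeRestrict _)

/-- Change of rings for Tor: version up to null modules. -/
theorem len_tor_baseChange_null (H : IsHypersurface D B α) (n : ℕ)
    {M Z : Type u} [AddCommGroup M] [Module D M]
    [AddCommGroup Z] [Module D Z] [Module B Z] [IsScalarTower D B Z]
    {χ : M →ₗ[D] Z} (hχ : IsBaseChange B χ) (hM : Null L (tors α M))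
    (N : Type u) [AddCommGroup N] [Module D N] [Module B N] [IsScalarTower D B N]
    (hN : ∀ n, FPn B n N) :
    L.len (TorM D n M N) = (resLen L B).len (TorM B n Z N) := by
  cases n with
  | zero =>
    rw [len_congr L (torZero M N), len_tensor_baseChange L hχ N,
      len_congr (resLen L B) (torZero Z N)]
  | succ n =>
    obtain ⟨F, K1, _, _, _, _, i, g, hF, hi, hg, h⟩ := exists_cover D M
    obtain ⟨Y, _, _, _, _, ψ, hψ⟩ := exists_baseChange (R := D) B F
    obtain ⟨X1, _, _, _, _, φ1, hφ1⟩ := exists_baseChange (R := D) B K1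
    let j : X1 →ₗ[B] Y := hφ1.lift (ψ ∘ₗ i)
    have hj : ∀ k, j (φ1 k) = ψ (i k) := fun k => hφ1.lift_eq _ k
    let q : Y →ₗ[B] Z := hψ.lift (χ ∘ₗ g)
    have hq : ∀ y, q (ψ y) = χ (g y) := fun y => hψ.lift_eq _ y
    have hjnull : Null (resLen L B) (LinearMap.ker j) :=
      null_ker_baseChange H hφ1 hψ i j hj g hi hg h hM
    obtain ⟨hex, hqs⟩ := H.baseChange_exact hφ1 hψ hχ i j hj g hg q hq h
    have hYflat : Module.Flat B Y := Module.Flat.isBaseChange D B F Y hψ
    have hFr : IsSMulRegular F α := H.regular_of_flat F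
    have hK1 : IsSMulRegular K1 α := by
      intro a b hab
      apply hi
      apply hFr
      simpa using congrArg i hab
    -- the image of `j`
    have hker : LinearMap.ker j.rangeRestrict = LinearMap.ker j := LinearMap.ker_rangeRestrict j
    have hI : NIso (resLen L B) j.rangeRestrict := by
      refine ⟨by rwa [hker], ?_⟩
      have : Subsingleton (LinearMap.range j ⧸ LinearMap.range j.rangeRestrict) := by
        rw [LinearMap.range_eq_top.2 j.surjective_rangeRestrict]
        exact Submodule.Quotient.subsingleton_iff.2 rfl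
      exact null_of_subsingleton
    have hex' : Exact (LinearMap.range j).subtype q := by
      rw [LinearMap.exact_iff, Submodule.range_subtype]
      exact LinearMap.exact_iff.1 hex
    cases n with
    | zero =>
      obtain ⟨e1⟩ := tor_one i g hi hg h N
      have h1 : (resLen L B).len (TorM B 1 Z N) = (resLen L B).len
          (LinearMap.ker ((LinearMap.range j).subtype.rTensor N)) := by
        obtain ⟨e2⟩ := tor_one (LinearMap.range j).subtype q (Submodule.injective_subtype _) hqs
          hex' N
        exact len_congr _ e2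
      rw [len_congr L e1, h1, len_ker_baseChange L hφ1 hψ i j hj N]
      have h2 : j.rTensor N = (LinearMap.range j).subtype.rTensor N ∘ₗ
          j.rangeRestrict.rTensor N := by
        rw [← LinearMap.rTensor_comp]
        rfl
      have h3 : Null (resLen L B) (LinearMap.ker (j.rangeRestrict.rTensor N)) :=
        null_ker_rTensor (hN 0) _ j.surjective_rangeRestrict hI.ker
      rw [h2, len_ker_comp (resLen L B) _ _
        (LinearMap.rTensor_surjective N j.surjective_rangeRestrict), h3, zero_add]
    | succ n =>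
      obtain ⟨e1⟩ := tor_shift i g hi hg h N n
      obtain ⟨e2⟩ := tor_shift (LinearMap.range j).subtype q (Submodule.injective_subtype _) hqs
          hex' N n
      rw [len_congr L e1, len_congr (resLen L B) e2, ← tor_len_of_niso hN _ hI (n + 1)]
      exact len_tor_baseChange L H (n + 1) hφ1 hK1 N

end null

end Vale.Agent.P177.TH
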