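import Vale.Agent.P177.TH.Theta
import Vale.Agent.P177.TH.Supply

/-!
P177, block TH: the truncated Euler characteristic over a flat algebra of a regular local ring,
final form.
-/

namespace Vale.Agent.P177.TH

open Vale.Agent.P202.Mix TensorProduct Function
open scoped ENNReal

universe u

/-- `D/(x)` is a hypersurface in `D`. -/
theorem isHypersurface_quotient {D : Type u} [CommRing D] (x : D) (hx : IsSMulRegular D x) :
    IsHypersurface D (D ⧸ Ideal.span {x}) x where
  regular := hx
  surj := Ideal.Quotient.mk_surjective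
  ker := by
    change RingHom.ker (Ideal.Quotient.mk _) = _
    exact Ideal.mk_ker

/-- **The truncated Euler characteristic, final form.** -/
theorem exists_theta (R : Type u) [CommRing R] [IsRegularLocalRing R] (d : ℕ)
    (hd : ringKrullDim R = d) (D : Type u) [CommRing D] [Algebra R D]
    [Module.Flat R D] (a : R) (ha : a ≠ 0) (K : Type u) [AddCommGroup K] [Module R K]
    [Module.Finite R K] (hK : ∀ x : K, a • x = 0) (L : AddLen D) (η : D) (hη : EtaNull L η)
    (m : ℕ) (hm : 1 ≤ m) (n : ℕ) (hn : d ≤ n) (hn1 : 1 ≤ n) :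
    ∃ (θ : ∀ (X : Type u) [AddCommGroup X] [Module D X], ℝ)
      (Ad : ∀ (X : Type u) [AddCommGroup X] [Module D X], Prop),
      Ap.IsTheta η (algebraMap R D a ^ (m + 1)) θ Ad ∧
      ∀ (V X : Type u) [AddCommGroup V] [Module D V] [AddCommGroup X] [Module D X]
        (f : V →ₗ[D] X), Surjective f →
        (∀ v, f v = 0 ↔ ∃ w, v = (algebraMap R D a) ^ (m + 1) • w) →
        (∃ k : ℕ, ∀ v : V, algebraMap R D a • v = 0 → η ^ k • v = 0) →
        (∀ i, L.len (TorM D i V (D ⊗[R] K)) < ⊤) →
        Ad X ∧ θ X = chi L n V (D ⊗[R] K) := by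
  have hdom : IsDomain R := regular_isDomain R
  have haR : IsSMulRegular R a := fun x y hxy => mul_left_cancel₀ ha hxy
  have haD : IsSMulRegular D (algebraMap R D a) := by
    have h1 : IsSMulRegular D a := by
      apply Module.Flat.isSMulRegular_of_isRegular
      have h1 : IsLeftRegular a := isLeftRegular_iff.2 haR
      exact ⟨h1, fun a b hab => h1 (by simpa [mul_comm] using hab)⟩
    intro x y hxy
    apply h1
    simpa [Algebra.smul_def] using hxy
  let B : Type u := D ⧸ Ideal.span {algebraMap R D a}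
  have H : IsHypersurface D B (algebraMap R D a) := isHypersurface_quotient _ haD
  have hA : ∀ i, FPn B i (B ⊗[R] K) := fun i => supply_fpn H i K hK
  have hV : Vn D B (n - 1) (B ⊗[R] K) := supply_vn_regular H haR d (n - 1) hd (by omega) K hK
  refine ⟨fun X _ _ => theta B L n (B ⊗[R] K) X,
    fun X _ _ => Adm B (algebraMap R D a) L η m (B ⊗[R] K) X,
    isTheta B _ L η H hη hm (B ⊗[R] K) hA n (n - 1) (by omega) hV, ?_⟩
  intro V X _ _ _ _ f hf hker hreg hfin
  obtain ⟨e⟩ := exists_toB_equiv H K hK
  have hlen : ∀ i, L.len (TorM D i V (B ⊗[R] K)) = L.len (TorM D i V (D ⊗[R] K)) := fun i =>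
    (len_congr L (torCongrRight i V e)).symm
  have h := theta_trunc B _ L η H hη (B ⊗[R] K) hA n hreg (fun i => by rw [hlen]; exact hfin i) f
    hf hker
  refine ⟨h.1, h.2.trans ?_⟩
  unfold chi
  exact Finset.sum_congr rfl fun i _ => by rw [hlen]

end Vale.Agent.P177.TH
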