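import Vale.Agent.P177.TH.Chg

/-!
P177, block TH: vanishing (up to null modules) of Tor over the hypersurface `B = D/α` between a
module with a matrix factorisation and `X/αX` with `X[α] ⊆ αX` up to null modules.
-/

namespace Vale.Agent.P177.TH

open Vale.Agent.P202.Mix TensorProduct Function
open scoped ENNReal

universe u

variable {D B : Type u} [CommRing D] [CommRing B] [Algebra D B] {α : D} {L : AddLen D}

/-- `A` is the cokernel of an injective map of flat finitely generated `D`-modules. -/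
def MF (D : Type u) [CommRing D] (A : Type u) [AddCommGroup A] [Module D A] : Prop :=
  ∃ (Q1 Q0 : Type u) (_ : AddCommGroup Q1) (_ : Module D Q1) (_ : AddCommGroup Q0)
    (_ : Module D Q0) (φ : Q1 →ₗ[D] Q0) (q : Q0 →ₗ[D] A), Module.Flat D Q1 ∧ Module.Flat D Q0 ∧
    FPn D 0 Q1 ∧ FPn D 0 Q0 ∧ Injective φ ∧ Surjective q ∧ Exact φ q

/-- admissibility with respect to `α`: `X[α] ⊆ α^m X` up to null modules. -/
def AFlat (L : AddLen D) (α : D) (m : ℕ) (X : Type u) [AddCommGroup X] [Module D X] : Prop :=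
  Null L (tors α X ⧸ Submodule.comap (tors α X).subtype
    (LinearMap.range (LinearMap.lsmul D X (α ^ m))))

theorem exists_psi {A Q1 Q0 : Type u} [AddCommGroup A] [Module D A] [AddCommGroup Q1]
    [Module D Q1] [AddCommGroup Q0] [Module D Q0] (φ : Q1 →ₗ[D] Q0) (q : Q0 →ₗ[D] A)
    (hA : ∀ a : A, α • a = 0) (hφ : Injective φ) (h : Exact φ q) :
    ∃ ψ : Q0 →ₗ[D] Q1, (∀ x, φ (ψ x) = α • x) ∧ (∀ y, ψ (φ y) = α • y) := by
  have hex : ∀ y : Q0, ∃ k, φ k = α • y := fun y => (h _).1 (by rw [map_smul, hA])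
  choose s0 hs0 using hex
  refine ⟨{ toFun := s0
            map_add' := fun x y => hφ (by rw [map_add, hs0, hs0, hs0, smul_add])
            map_smul' := fun r x => hφ (by
              rw [map_smul, hs0, hs0, RingHom.id_apply, smul_comm]) }, hs0, fun y => ?_⟩
  apply hφ
  rw [map_smul]
  exact hs0 _

/-- the image of the `α`-torsion of `Q ⊗ X` under a map killing `α (Q ⊗ X)` is null. -/
theorem null_range_tors {Q X Z : Type u} [AddCommGroup Q] [Module D Q] [Module.Flat D Q]
    [AddCommGroup X] [Module D X] [AddCommGroup Z] [Module D Z] (hQ : FPn D 0 Q)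
    (hX : AFlat L α 1 X) (T : Q ⊗[D] X →ₗ[D] Z) (hT : ∀ z, T (α • z) = 0) :
    Null L (LinearMap.range (T ∘ₗ (tors α (Q ⊗[D] X)).subtype)) := by
  -- the torsion of `Q ⊗ X` is the image of `Q ⊗ X[α]`
  have hex : Exact ((tors α X).subtype.lTensor Q) ((LinearMap.lsmul D X α).lTensor Q) := by
    apply Module.Flat.lTensor_exact
    rw [LinearMap.exact_iff, Submodule.range_subtype]
  have hls : ∀ z : Q ⊗[D] X, (LinearMap.lsmul D X α).lTensor Q z = α • z := by
    intro z
    induction z using TensorProduct.induction_on with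
    | zero => simp
    | tmul a b => simp
    | add a b ha hb => rw [map_add, ha, hb, smul_add]
  let s : Q ⊗[D] (tors α X) →ₗ[D] Z := T ∘ₗ (tors α X).subtype.lTensor Q
  have h1 : LinearMap.range (T ∘ₗ (tors α (Q ⊗[D] X)).subtype) ≤ LinearMap.range s := by
    rintro _ ⟨⟨z, hz⟩, rfl⟩
    have hz' : (LinearMap.lsmul D X α).lTensor Q z = 0 := by
      rw [hls]
      exact hz
    obtain ⟨w, hw⟩ := (hex z).1 hz'
    exact ⟨w, congrArg T hw⟩
  refine Null.submodule_mono h1 ?_
  let P : Submodule D (tors α X) := Submodule.comap (tors α X).subtype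
    (LinearMap.range (LinearMap.lsmul D X (α ^ 1)))
  refine null_range_of_factor (P.mkQ.lTensor Q) (LinearMap.lTensor_surjective Q P.mkQ_surjective)
    s ?_ (null_tensor_of_fp hQ hX)
  have hex2 : Exact (P.subtype.lTensor Q) (P.mkQ.lTensor Q) := by
    apply lTensor_exact Q _ P.mkQ_surjective
    rw [LinearMap.exact_iff, Submodule.range_subtype, Submodule.ker_mkQ]
  rw [LinearMap.exact_iff.1 hex2]
  rintro _ ⟨w, rfl⟩
  rw [LinearMap.mem_ker]
  induction w using TensorProduct.induction_on with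
  | zero => simp
  | tmul a b =>
    obtain ⟨⟨b, hb⟩, x, hx⟩ := b
    change T (a ⊗ₜ[D] b) = 0
    have hx' : α • x = b := by
      have : α ^ 1 • x = b := hx
      rwa [pow_one] at this
    rw [← hx', TensorProduct.tmul_smul, hT]
  | add a b ha hb => rw [map_add, map_add, ha, hb, add_zero]

/-- the syzygy over `B` of a module with a matrix factorisation. -/
theorem mf_step (H : IsHypersurface D B α) {A : Type u} [AddCommGroup A] [Module D A]
    [Module B A] [IsScalarTower D B A] (hA : MF D A) :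
    ∃ (Q1 Q0 W0 A' : Type u) (_ : AddCommGroup Q1) (_ : Module D Q1) (_ : AddCommGroup Q0)
      (_ : Module D Q0) (_ : AddCommGroup W0) (_ : Module D W0) (_ : Module B W0)
      (_ : IsScalarTower D B W0) (_ : AddCommGroup A') (_ : Module D A') (_ : Module B A')
      (_ : IsScalarTower D B A')
      (φ : Q1 →ₗ[D] Q0) (ψ : Q0 →ₗ[D] Q1) (π0 : Q0 →ₗ[D] W0) (qb : W0 →ₗ[B] A)
      (ι : A' →ₗ[B] W0) (r : Q1 →ₗ[D] A'), Module.Flat D Q1 ∧ Module.Flat D Q0 ∧
      FPn D 0 Q1 ∧ FPn D 0 Q0 ∧ (∀ x, φ (ψ x) = α • x) ∧ (∀ y, ψ (φ y) = α • y) ∧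
      IsBaseChange B π0 ∧ Module.Flat B W0 ∧ Surjective qb ∧ Injective ι ∧ Exact ι qb ∧
      (∀ y, ι (r y) = π0 (φ y)) ∧ Surjective r ∧ Exact ψ r ∧ MF D A' := by
  obtain ⟨Q1, Q0, _, _, _, _, φ, q, hf1, hf0, hp1, hp0, hφ, hq, hex⟩ := hA
  obtain ⟨ψ, hψ1, hψ2⟩ := exists_psi (α := α) φ q (fun a => H.smul_eq_zero a) hφ hex
  obtain ⟨W0, _, _, _, _, π0, hπ0⟩ := exists_baseChange (R := D) B Q0
  have hW0 : Module.Flat B W0 := Module.Flat.isBaseChange D B Q0 W0 hπ0
  let qb : W0 →ₗ[B] A := hπ0.lift q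
  have hqb : ∀ y, qb (π0 y) = q y := fun y => hπ0.lift_eq _ y
  have hqbs : Surjective qb := by
    intro a
    obtain ⟨y, rfl⟩ := hq a
    exact ⟨π0 y, hqb y⟩
  have hexb : Exact (LinearMap.ker qb).subtype qb := by
    rw [LinearMap.exact_iff, Submodule.range_subtype]
  have hr0 : ∀ y, π0 (φ y) ∈ LinearMap.ker qb := by
    intro y
    rw [LinearMap.mem_ker, hqb]
    exact (hex _).2 ⟨y, rfl⟩
  let r : Q1 →ₗ[D] LinearMap.ker qb :=
    { toFun := fun y => ⟨π0 (φ y), hr0 y⟩
      map_add' := fun x y => Subtype.ext (by simp)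
      map_smul' := fun c x => Subtype.ext (by
        change π0 (φ (c • x)) = c • π0 (φ x)
        rw [map_smul, map_smul]) }
  have hrs : Surjective r := by
    rintro ⟨z, hz⟩
    obtain ⟨x, rfl⟩ := H.baseChange_surj hπ0 z
    rw [LinearMap.mem_ker, hqb] at hz
    obtain ⟨y, rfl⟩ := (hex _).1 hz
    exact ⟨y, rfl⟩
  have hψinj : Injective ψ := by
    have h1 : IsSMulRegular Q0 α := H.regular_of_flat Q0
    intro x y hxy
    apply h1
    change α • x = α • y
    rw [← hψ1, ← hψ1, hxy]
  have hexr : Exact ψ r := by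
    intro y
    constructor
    · intro hy
      have h1 : π0 (φ y) = 0 := congrArg Subtype.val hy
      obtain ⟨w, hw⟩ := H.baseChange_eq_zero hπ0 _ h1
      exact ⟨w, hφ (by rw [hψ1, hw])⟩
    · rintro ⟨x, rfl⟩
      apply Subtype.ext
      change π0 (φ (ψ x)) = 0
      rw [hψ1, H.baseChange_smul]
  exact ⟨Q1, Q0, W0, LinearMap.ker qb, inferInstance, inferInstance, inferInstance, inferInstance,
    inferInstance, inferInstance, inferInstance, inferInstance, inferInstance, inferInstance,
    inferInstance, inferInstance, φ, ψ, π0, qb, (LinearMap.ker qb).subtype, r, hf1, hf0, hp1, hp0,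
    hψ1, hψ2, hπ0, hW0, hqbs, Submodule.injective_subtype _, hexb, fun y => rfl, hrs, hexr,
    Q0, Q1, inferInstance, inferInstance, inferInstance, inferInstance, ψ, r, hf0, hf1, hp0, hp1,
    hψinj, hrs, hexr⟩

/-- Vanishing of `Tor^B_j(A, X/αX)`, `j ≥ 1`, for `A` with a matrix factorisation. -/
theorem mf_null (H : IsHypersurface D B α) {X Y : Type u} [AddCommGroup X] [Module D X]
    [AddCommGroup Y] [Module D Y] [Module B Y] [IsScalarTower D B Y] {π : X →ₗ[D] Y}
    (hπ : IsBaseChange B π) (hX : AFlat L α 1 X) (j : ℕ) {A : Type u} [AddCommGroup A] [Module D A]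
    [Module B A] [IsScalarTower D B A] (hA : MF D A) :
    Null (resLen L B) (TorM B (j + 1) A Y) := by
  induction j generalizing A with
  | zero =>
    obtain ⟨Q1, Q0, W0, A', _, _, _, _, _, _, _, _, _, _, _, _, φ, ψ, π0, qb, ι, r, hf1, hf0, hp1,
      hp0, hψ1, hψ2, hπ0, hW0, hqbs, hι, hexb, hιr, hrs, hexr, hA'⟩ := mf_step H hA
    obtain ⟨e1⟩ := tor_one ι qb hι hqbs hexb Y
    refine Null.congr ?_ e1.symm
    -- pass to `D`
    obtain ⟨eX, heX⟩ := exists_cancel hπ A'
    obtain ⟨eY, heY⟩ := exists_cancel hπ W0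
    let θ : A' ⊗[D] X →ₗ[B] W0 ⊗[D] X := AlgebraTensorModule.map ι LinearMap.id
    have hθ : ∀ z : A' ⊗[B] Y, θ (eX z) = eY (ι.rTensor Y z) := by
      intro z
      induction z using TensorProduct.induction_on with
      | zero => simp
      | tmul a y =>
        obtain ⟨x, rfl⟩ := H.baseChange_surj hπ y
        rw [heX, LinearMap.rTensor_tmul, heY]
        rfl
      | add a b ha hb => rw [map_add, map_add, ha, hb, map_add, map_add]
    obtain ⟨e3⟩ := ker_equiv eX eY (ι.rTensor Y) θ hθ
    refine Null.congr ?_ e3.symm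
    -- the kernel of `θ`
    let T : Q1 ⊗[D] X →ₗ[D] A' ⊗[D] X := r.rTensor X
    have hTs : Surjective T := LinearMap.rTensor_surjective X hrs
    have hαA' : ∀ a : A', α • a = 0 := fun a => H.smul_eq_zero a
    have hTα : ∀ z, T (α • z) = 0 := by
      intro z
      rw [map_smul]
      generalize T z = w
      induction w using TensorProduct.induction_on with
      | zero => simp
      | tmul a b => rw [TensorProduct.smul_tmul', hαA', TensorProduct.zero_tmul]
      | add a b ha hb => rw [smul_add, ha, hb, add_zero]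
    have h1 := null_range_tors hp1 hX T hTα
    have hθT : ∀ z, θ (T z) = π0.rTensor X (φ.rTensor X z) := by
      intro z
      induction z using TensorProduct.induction_on with
      | zero => simp
      | tmul a b =>
        change ι (r a) ⊗ₜ[D] b = π0 (φ a) ⊗ₜ[D] b
        rw [hιr]
      | add a b ha hb => simp only [map_add, ha, hb]
    have hψφ : ∀ z : Q1 ⊗[D] X, ψ.rTensor X (φ.rTensor X z) = α • z := by
      intro z
      induction z using TensorProduct.induction_on with
      | zero => simp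
      | tmul a b =>
        change ψ (φ a) ⊗ₜ[D] b = _
        rw [hψ2, TensorProduct.smul_tmul']
      | add a b ha hb => simp only [map_add, ha, hb, smul_add]
    have hφψ : ∀ z : Q0 ⊗[D] X, φ.rTensor X (ψ.rTensor X z) = α • z := by
      intro z
      induction z using TensorProduct.induction_on with
      | zero => simp
      | tmul a b =>
        change φ (ψ a) ⊗ₜ[D] b = _
        rw [hψ1, TensorProduct.smul_tmul']
      | add a b ha hb => simp only [map_add, ha, hb, smul_add]
    have hrψ : ∀ z : Q0 ⊗[D] X, T (ψ.rTensor X z) = 0 := by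
      intro z
      induction z using TensorProduct.induction_on with
      | zero => simp
      | tmul a b =>
        change r (ψ a) ⊗ₜ[D] b = _
        rw [(hexr _).2 ⟨a, rfl⟩, TensorProduct.zero_tmul]
      | add a b ha hb => simp only [map_add, ha, hb, add_zero]
    have hπ0ker : Exact ((LinearMap.lsmul D Q0 α).rTensor X) (π0.rTensor X) := by
      apply rTensor_exact X _ (H.baseChange_surj hπ0)
      intro y
      constructor
      · intro hy
        obtain ⟨w, hw⟩ := H.baseChange_eq_zero hπ0 _ hy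
        exact ⟨w, hw.symm⟩
      · rintro ⟨w, rfl⟩
        exact H.baseChange_smul π0 w
    have hls : ∀ z : Q0 ⊗[D] X, (LinearMap.lsmul D Q0 α).rTensor X z = α • z := by
      intro z
      induction z using TensorProduct.induction_on with
      | zero => simp
      | tmul a b =>
        change (α • a) ⊗ₜ[D] b = _
        rw [TensorProduct.smul_tmul']
      | add a b ha hb => rw [map_add, ha, hb, smul_add]
    have hle : ∀ w ∈ LinearMap.ker θ, w ∈ LinearMap.range (T ∘ₗ (tors α (Q1 ⊗[D] X)).subtype) := by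
      intro w hw
      obtain ⟨z, rfl⟩ := hTs w
      rw [LinearMap.mem_ker, hθT] at hw
      obtain ⟨w', hw'⟩ := (hπ0ker _).1 hw
      rw [hls] at hw'
      have h2 : φ.rTensor X (z - ψ.rTensor X w') = 0 := by
        rw [map_sub, hφψ, hw', sub_self]
      have h3 : α • (z - ψ.rTensor X w') = 0 := by
        rw [← hψφ, h2, map_zero]
      refine ⟨⟨z - ψ.rTensor X w', h3⟩, ?_⟩
      change T (z - ψ.rTensor X w') = T z
      rw [map_sub, hrψ, sub_zero]
    have h4 : Null L (LinearMap.ker θ) := by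
      let emb : LinearMap.ker θ →ₗ[D] LinearMap.range (T ∘ₗ (tors α (Q1 ⊗[D] X)).subtype) :=
        { toFun := fun w => ⟨w.1, hle w.1 w.2⟩
          map_add' := fun _ _ => rfl
          map_smul' := fun _ _ => rfl }
      refine h1.of_inj emb ?_
      intro a b hab
      have h5 := congrArg Subtype.val hab
      exact Subtype.ext h5
    unfold Null
    rw [resLen_len]
    exact h4
  | succ j ih =>
    obtain ⟨Q1, Q0, W0, A', _, _, _, _, _, _, _, _, _, _, _, _, φ, ψ, π0, qb, ι, r, hf1, hf0, hp1,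
      hp0, hψ1, hψ2, hπ0, hW0, hqbs, hι, hexb, hιr, hrs, hexr, hA'⟩ := mf_step H hA
    obtain ⟨e⟩ := tor_shift ι qb hι hqbs hexb Y j
    exact (ih hA').congr e.symm

/-- the `n`-th syzygy over `B` has a matrix factorisation. -/
def Vn (D B : Type u) [CommRing D] [CommRing B] [Algebra D B] :
    ℕ → ∀ (A : Type u) [AddCommGroup A] [Module D A] [Module B A] [IsScalarTower D B A], Prop
  | 0 => fun A _ _ _ _ => MF D A
  | n + 1 => fun A _ _ _ _ => ∃ (k : ℕ) (f : (Fin k → B) →ₗ[B] A), Surjective f ∧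
      Vn D B n (LinearMap.ker f)

/-- Vanishing of `Tor^B_j(A, X/αX)`, `j > n`, if the `n`-th syzygy of `A` has a matrix
factorisation. -/
theorem vn_null (H : IsHypersurface D B α) {X Y : Type u} [AddCommGroup X] [Module D X]
    [AddCommGroup Y] [Module D Y] [Module B Y] [IsScalarTower D B Y] {π : X →ₗ[D] Y}
    (hπ : IsBaseChange B π) (hX : AFlat L α 1 X) (n : ℕ) {A : Type u} [AddCommGroup A] [Module D A]
    [Module B A] [IsScalarTower D B A] (hA : Vn D B n A) (j : ℕ) (hj : n + 1 ≤ j) :
    Null (resLen L B) (TorM B j A Y) := by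
  induction n generalizing A j with
  | zero =>
    obtain ⟨j, rfl⟩ : ∃ i, j = i + 1 := ⟨j - 1, by omega⟩
    exact mf_null H hπ hX j hA
  | succ n ih =>
    obtain ⟨k, f, hf, hK⟩ := hA
    obtain ⟨j, rfl⟩ : ∃ i, j = i + 2 := ⟨j - 2, by omega⟩
    have hex : Exact (LinearMap.ker f).subtype f := by
      rw [LinearMap.exact_iff, Submodule.range_subtype]
    obtain ⟨e⟩ := tor_shift (LinearMap.ker f).subtype f (Submodule.injective_subtype _) hf hex Y j
    exact (ih hK (j + 1) (by omega)).congr e.symm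

end Vale.Agent.P177.TH
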